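import Crest.Agent.R273.HolF_578
import Crest.Agent.R273.Fam_835
import Crest.Agent.R273.KahI_645
import Crest.Agent.R275.Del_75
import Mathlib.RingTheory.MvPolynomial.Homogeneous

/-!
# X261 (S0399), E0 (helper69): the vocabulary of the Bogomolov criterion

* `TOm L p e`  : `e` is a holomorphic `p`-form with values in `L⁻¹` (a sheaf map `L → Ω^p`)
* `h0 L`, `Up L p`, `Low L p` : the two halves of `κ(L) = p`
* `Cmp A B`    : the atlases `A`, `B` define the same complex structure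
* `Special A`  : the hypothesis `hspecial` of S0399 in the language of atlases
* `Wr A s t`   : the twisted 1-form `t ds - s dt`; `Closed L e`: `(t ds - s dt) ∧ e = 0`
* `AInd s`     : the sections `s k` satisfy no homogeneous polynomial relation
* `NoBog A`    : the form of `hspecial` to be used: no `L → Ω^p` with `h0 (L ^ m) ≥ c m ^ p`
-/

set_option autoImplicit false
set_option linter.unusedSectionVars false

open Set Filter Topology Complex Matrix

namespace Crest.Agent.X261.E0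

open Crest.Agent.R275.Geo Crest.Agent.R275.Core144
open Crest.Agent.R275.OmT75 (dl)
open Crest.Agent.R273.Fock_243 (FI Gam eW)
open Crest.Agent.R273.Map_835 Crest.Agent.R273.PB_835 Crest.Agent.R273.Kah_333

noncomputable section

variable {n : ℕ} {M : Type} [TopologicalSpace M] {A B C : Atl n M}

/-- `e` is a holomorphic `p`-form with values in `L⁻¹` (coefficients of `dz_T` in the charts) -/
structure TOm (L : LB A) (p : ℕ) (e : A.ι → M → FI n → ℂ) : Prop where
  hol : ∀ i T, HolAt A i univ (fun x => e i x T)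
  off : ∀ i, ∀ x ∉ (A.e i).source, e i x = 0
  deg : ∀ i x T, T.card ≠ p → e i x T = 0
  tr : ∀ i j, ∀ x ∈ (A.e i).source ∩ (A.e j).source,
    e i x = (L.g i j x)⁻¹ • (Gam (Jm A i j x)ᵀ *ᵥ e j x)

/-- the dimension of the space of global sections -/
def h0 (L : LB A) : ℕ := Module.finrank ℂ (HS L univ)

/-- `h0 (L ^ m) ≤ C m ^ p` -/
def Up (L : LB A) (p : ℕ) : Prop :=
  ∃ C : ℝ, ∀ m : ℕ, 0 < m → (h0 (L ^ m) : ℝ) ≤ C * (m : ℝ) ^ p

/-- `h0 (L ^ m) ≥ c m ^ p` for infinitely many `m` -/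
def Low (L : LB A) (p : ℕ) : Prop :=
  ∃ c : ℝ, 0 < c ∧ ∀ m₀ : ℕ, ∃ m : ℕ, m₀ ≤ m ∧ c * (m : ℝ) ^ p ≤ (h0 (L ^ m) : ℝ)

/-- the two atlases are holomorphically compatible -/
def Cmp (A B : Atl n M) : Prop := HolMap A B id ∧ HolMap B A id

theorem Cmp.refl (A : Atl n M) : Cmp A A := ⟨holMap_id A, holMap_id A⟩

theorem Cmp.symm (h : Cmp A B) : Cmp B A := ⟨h.2, h.1⟩

theorem Cmp.trans (h : Cmp A B) (h' : Cmp B C) : Cmp A C := ⟨h'.1.comp h.1, h.2.comp h'.2⟩

theorem cmp_of_lBih (h : LBih A B id) (h' : LBih B A id) : Cmp A B := ⟨h.toHolMap, h'.toHolMap⟩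

theorem Cmp.lBih (h : Cmp A B) : LBih A B id :=
  Crest.Agent.R273.Fam_835.lBih_of_inv h.1 h.2 fun _ => rfl

/-- a Kaehler metric read in a compatible atlas -/
def Cmp.kah (h : Cmp A B) (K : Kah A) : Kah B :=
  Crest.Agent.R273.KahI_645.pullI K h.2 fun _ _ _ hy hi => h.symm.lBih.inj (mem_dm hy hi)

/-- `hspecial` of S0399 -/
def Special (A : Atl n M) : Prop :=
  ∀ B : Atl n M, Cmp A B → ∀ p : ℕ, 1 ≤ p → ∀ (L : LB B) (e : B.ι → M → FI n → ℂ),
    TOm L p e → (∃ i x, e i x ≠ 0) → Up L p → ¬ Low L p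

theorem Special.cmp (h : Special A) (hB : Cmp A B) : Special B :=
  fun C hC => h C (hB.trans hC)

/-- the twisted 1-form `t ds - s dt` in the chart `i` -/
def Wr (A : Atl n M) (s t : A.ι → M → ℂ) (i : A.ι) (x : M) : Fin n → ℂ :=
  fun a => t i x * dl A i a (s i) x - s i x * dl A i a (t i) x

/-- `(t ds - s dt) ∧ e = 0` for all sections `s`, `t` of the same positive power of `L` -/
def Closed (L : LB A) (e : A.ι → M → FI n → ℂ) : Prop :=
  ∀ m : ℕ, 0 < m → ∀ s t, IsHS (L ^ m) univ s → IsHS (L ^ m) univ t →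
    ∀ i, ∀ x ∈ (A.e i).source, eW (Wr A s t i x) *ᵥ e i x = 0

/-- no homogeneous polynomial relation -/
def AInd {κ : Type} (A : Atl n M) (s : κ → A.ι → M → ℂ) : Prop :=
  ∀ (d : ℕ) (P : MvPolynomial κ ℂ), P.IsHomogeneous d →
    (∀ i, ∀ x ∈ (A.e i).source, MvPolynomial.eval (fun k => s k i x) P = 0) → P = 0

/-- **no Bogomolov sheaf**, the form in which `hspecial` is used -/
def NoBog (A : Atl n M) : Prop :=
  ∀ B : Atl n M, Cmp A B → Finite B.ι → Nonempty (Part B) → ∀ p : ℕ, 1 ≤ p →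
    ∀ (L : LB B) (e : B.ι → M → FI n → ℂ), TOm L p e → (∃ i x, e i x ≠ 0) → ¬ Low L p

theorem NoBog.cmp (h : NoBog A) (hB : Cmp A B) : NoBog B :=
  fun C hC => h C (hB.trans hC)


end

end Crest.Agent.X261.E0
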