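import Crest.Agent.X261.Top.Defs
import Crest.Agent.X261.Cov.A
import Crest.Agent.R273.Fam_835
import Crest.Agent.R273.Kah_333
import Crest.Agent.R273.C0a_390
import Crest.Agent.R273.BKNd_37
import Crest.Agent.R273.Sg2_101
import Crest.Agent.R273.Fock_243

-- ▼ part X261/Fol/Ref
section

/-!
# Row 261, FOL (text of helper52, landed by helper38), file `Ref`: coverings do not depend on the refinement of the atlas

* `refH D R F : (ref D R).cov F ≃ₜ D.cov F`, compatible with `pr`, `co`, `pt` and the deck group;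
* `connected_ref`, `simplyConnected_ref`, `push_ref`.
-/

set_option autoImplicit false
set_option linter.unusedSectionVars false

open Set Filter Topology

namespace Crest.Agent.X261.Fol

open Crest.Agent.R275.Geo Crest.Agent.R273.UCov_914
open Crest.Agent.R273.PB_835 (Ref)
open Crest.Agent.R273.Map_835 (HolMap)
open Crest.Agent.X261.Top (ref)
open Crest.Agent.X261.Cov.A (push)

noncomputable section

variable {n : ℕ} {X : Type} [TopologicalSpace X] {A A' : Atl n X} {G : Type} [Group G]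
  (D : MonD A G) (R : Ref A' A id) {F : Type} [MulAction G F]

theorem rsub {i : A'.ι} {x : X} (h : x ∈ (A'.e i).source) : x ∈ (A.e (R.r i)).source := R.sub i x h



/-- from the fine atlas to the coarse atlas -/
def refU (e : (ref D R).cov F) : D.cov F :=
  D.pt (R.r (A'.cover ((ref D R).pr e)).choose)
    ((ref D R).co (A'.cover ((ref D R).pr e)).choose e) ((ref D R).pr e)

/-- from the coarse atlas to the fine atlas -/
def refD (e : D.cov F) : (ref D R).cov F :=
  (ref D R).pt (A'.cover (D.pr e)).choose (D.co (R.r (A'.cover (D.pr e)).choose) e) (D.pr e)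

@[simp] theorem pr_refU (e : (ref D R).cov F) : D.pr (refU D R e) = (ref D R).pr e := rfl

@[simp] theorem pr_refD (e : D.cov F) : (ref D R).pr (refD D R e) = D.pr e := rfl

variable {D R}

theorem refU_eq {i : A'.ι} {e : (ref D R).cov F} (h : (ref D R).pr e ∈ (A'.e i).source) :
    refU D R e = D.pt (R.r i) ((ref D R).co i e) ((ref D R).pr e) := by
  have h0 := (A'.cover ((ref D R).pr e)).choose_spec
  rw [refU, D.pt_eq _ (rsub R h0) (rsub R h), (ref D R).co_eq h0 h]
  rfl

theorem refD_eq {i : A'.ι} {e : D.cov F} (h : D.pr e ∈ (A'.e i).source) :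
    refD D R e = (ref D R).pt i (D.co (R.r i) e) (D.pr e) := by
  have h0 := (A'.cover (D.pr e)).choose_spec
  rw [refD, (ref D R).pt_eq _ h0 h, D.co_eq (rsub R h0) (rsub R h)]
  rfl

theorem co_refU {i : A'.ι} {e : (ref D R).cov F} (h : (ref D R).pr e ∈ (A'.e i).source) :
    D.co (R.r i) (refU D R e) = (ref D R).co i e := by
  rw [refU_eq h, D.co_pt _ (rsub R h)]


theorem refU_pt {i : A'.ι} (v : F) {x : X} (h : x ∈ (A'.e i).source) :
    refU D R ((ref D R).pt i v x) = D.pt (R.r i) v x := by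
  rw [refU_eq (i := i) (e := (ref D R).pt i v x) h, (ref D R).co_pt _ h, MonD.pr_pt]

theorem refD_pt {i : A'.ι} (v : F) {x : X} (h : x ∈ (A'.e i).source) :
    refD D R (D.pt (R.r i) v x) = (ref D R).pt i v x := by
  rw [refD_eq (i := i) (e := D.pt (R.r i) v x) h, D.co_pt _ (rsub R h), MonD.pr_pt]

theorem refD_refU (e : (ref D R).cov F) : refD D R (refU D R e) = e := by
  have h0 := (A'.cover ((ref D R).pr e)).choose_spec
  rw [refU_eq h0, refD_pt _ h0, (ref D R).pt_co h0]

theorem refU_refD (e : D.cov F) : refU D R (refD D R e) = e := by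
  have h0 := (A'.cover (D.pr e)).choose_spec
  rw [refD_eq h0, refU_pt _ h0, D.pt_co (rsub R h0)]

theorem continuous_refU : Continuous (refU D R (F := F)) := by
  refine continuous_iff_continuousAt.2 fun e => ?_
  obtain ⟨i, hi⟩ := A'.cover ((ref D R).pr e)
  have h1 : ContinuousAt (fun e' : (ref D R).cov F =>
      D.pt (R.r i) ((ref D R).co i e) ((ref D R).pr e')) e :=
    ContinuousAt.comp (g := D.pt (R.r i) ((ref D R).co i e))
      ((D.continuousOn_pt _ _).continuousAt ((A.e _).open_source.mem_nhds (rsub R hi)))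
      (ref D R).continuous_pr.continuousAt
  refine h1.congr ?_
  filter_upwards [(ref D R).co_eventually hi] with e' he'
  rw [refU_eq he'.1, he'.2]

theorem continuous_refD : Continuous (refD D R (F := F)) := by
  refine continuous_iff_continuousAt.2 fun e => ?_
  obtain ⟨i, hi⟩ := A'.cover (D.pr e)
  have h1 : ContinuousAt (fun e' : D.cov F => (ref D R).pt i (D.co (R.r i) e) (D.pr e')) e :=
    ContinuousAt.comp (g := (ref D R).pt i (D.co (R.r i) e))
      (((ref D R).continuousOn_pt _ _).continuousAt ((A'.e _).open_source.mem_nhds hi))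
      D.continuous_pr.continuousAt
  refine h1.congr ?_
  filter_upwards [D.co_eventually (rsub R hi),
    D.continuous_pr.continuousAt.eventually ((A'.e i).open_source.mem_nhds hi)] with e' he' h2
  rw [refD_eq h2, he'.2]

variable (D R) in
/-- the two coverings are homeomorphic over the base -/
def refH (F : Type) [MulAction G F] : (ref D R).cov F ≃ₜ D.cov F where
  toFun := refU D R
  invFun := refD D R
  left_inv := refD_refU
  right_inv := refU_refD
  continuous_toFun := continuous_refU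
  continuous_invFun := continuous_refD

theorem refU_deck (g : G) (e : (ref D R).cov G) : refU D R (g • e) = g • refU D R e := by
  obtain ⟨i, hi⟩ := A'.cover ((ref D R).pr e)
  refine D.ext_co (i := R.r i) (rsub R hi) rfl ?_
  rw [co_refU (e := g • e) hi, D.co_deck, (ref D R).co_deck, co_refU hi]


/-- a continuous map over a holomorphic map of the bases is holomorphic -/
theorem holMap_lift {m : ℕ} {Y : Type} [TopologicalSpace Y] {B : Atl m Y} {f : Y → D.cov F}
    (hc : Continuous f) (h : HolMap B A fun y => D.pr (f y)) : HolMap B (D.atl F) f :=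
  ⟨hc, fun i q => (h.hol i q.1).mono fun _ hz => ⟨hz.1, hz.2.1⟩⟩

variable (D) in
theorem holMap_pr : HolMap (D.atl F) A D.pr := by
  refine ⟨D.continuous_pr, fun q j => ?_⟩
  exact A.holo q.1 j

theorem holMap_refU (h : HolMap A' A id) : HolMap ((ref D R).atl F) (D.atl F) (refU D R) :=
  holMap_lift continuous_refU (h.comp (holMap_pr (ref D R)))

theorem holMap_refD (h : HolMap A A' id) : HolMap (D.atl F) ((ref D R).atl F) (refD D R) :=
  holMap_lift continuous_refD (h.comp (holMap_pr D))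

theorem holMap_deck (g : G) : HolMap (D.atl G) (D.atl G) fun y => g • y :=
  holMap_lift (continuous_const_smul g) (holMap_pr D)

variable (D R) in
theorem connected_ref [ConnectedSpace (D.cov F)] : ConnectedSpace ((ref D R).cov F) :=
  (refH D R F).symm.surjective.connectedSpace (refH D R F).symm.continuous

variable (D R) in
theorem simplyConnected_ref [SimplyConnectedSpace (D.cov F)] :
    SimplyConnectedSpace ((ref D R).cov F) :=
  (refH D R F).toHomotopyEquiv.simplyConnectedSpace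

end

end Crest.Agent.X261.Fol
end

-- ▼ part X261/E0/ClA
section

/-!
# X261 (S0399), E0 (helper69), CLOSED part A: the complex Hessian of `log (|S|² W + δ)`

* `wd_comp_real`, `hess_comp_real`, `hess_log_cmp` : chain rules (as in `R273.FIa0_597`)
* `hess_lse` : `∂∂̄ log (U + δ) ≥ U / (U + δ) ∂∂̄ log W` for `U = |S|² W`, `S` holomorphic
-/

set_option autoImplicit false
set_option linter.unusedSectionVars false

open Set Filter Topology Complex
open scoped ContDiff Matrix ComplexConjugate ComplexOrder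

namespace Crest.Agent.X261.E0.ClA

open Crest.Agent.R275.Geo Crest.Agent.R275.Core144 Crest.Agent.R275.EDR890
open Crest.Agent.R273.Defs_333 Crest.Agent.R273.Hess_333 Crest.Agent.R273.HessB_333

noncomputable section

variable {n : ℕ}

theorem wd_comp_real {φ : ℝ → ℝ} {d : ℝ} {u : Cn n → ℝ} {z : Cn n} (s : WI n)
    (hu : DifferentiableAt ℝ u z) (hφ : HasDerivAt φ d (u z)) :
    wd s (cu fun w => φ (u w)) z = (d : ℂ) * wd s (cu u) z := by
  have h1 : HasFDerivAt (cu u) (Complex.ofRealCLM.comp (fderiv ℝ u z)) z :=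
    Complex.ofRealCLM.hasFDerivAt.comp z hu.hasFDerivAt
  have h2 : HasFDerivAt (cu fun w => φ (u w)) (Complex.ofRealCLM.comp (d • fderiv ℝ u z)) z :=
    Complex.ofRealCLM.hasFDerivAt.comp z (hφ.comp_hasFDerivAt z hu.hasFDerivAt)
  have h3 : Complex.ofRealCLM.comp (d • fderiv ℝ u z) =
      (d : ℂ) • Complex.ofRealCLM.comp (fderiv ℝ u z) := by
    ext v
    simp
  rw [wd, wd, h1.fderiv, h2.fderiv, h3, wdL_smul, smul_eq_mul]

theorem hess_comp_real {φ φ' : ℝ → ℝ} {d2 : ℝ} {u : Cn n → ℝ} {z : Cn n}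
    (hu : ContDiffAt ℝ ∞ u z) (h1 : ∀ᶠ s in 𝓝 (u z), HasDerivAt φ (φ' s) s)
    (h2 : HasDerivAt φ' d2 (u z)) (a b : Fin n) :
    hess (fun w => φ (u w)) z a b = (φ' (u z) : ℂ) * hess u z a b +
      (d2 : ℂ) * (wd (false, a) (cu u) z * wd (true, b) (cu u) z) := by
  have hd : ∀ᶠ w in 𝓝 z, DifferentiableAt ℝ u w := by
    have := (hu.of_le (m := 1) (by exact_mod_cast le_top)).eventually (by simp)
    filter_upwards [this] with w hw
    exact hw.differentiableAt (by simp)
  have e1 : wd (true, b) (cu fun w => φ (u w)) =ᶠ[𝓝 z] fun w =>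
      (cu fun w => φ' (u w)) w * wd (true, b) (cu u) w := by
    filter_upwards [hd, hu.continuousAt.eventually h1] with w hw hw'
    exact wd_comp_real (true, b) hw hw'
  have hd0 : DifferentiableAt ℝ u z := hu.differentiableAt (by simp)
  have d1 : DifferentiableAt ℝ (cu fun w => φ' (u w)) z :=
    Complex.ofRealCLM.differentiableAt.comp z (h2.differentiableAt.comp z hd0)
  have d3 : DifferentiableAt ℝ (wd (true, b) (cu u)) z :=
    (contDiffAt_wd (contDiffAt_cu hu) _).differentiableAt (by simp)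
  rw [hess_apply, wd_congr e1, wd_mul d1 d3, wd_comp_real (φ := φ') (false, a) hd0 h2, hess_apply]
  simp only [cu]
  ring

theorem hess_log_add {U : Cn n → ℝ} {z : Cn n} (δ : ℝ) (hU : ContDiffAt ℝ ∞ U z)
    (hp : 0 < U z + δ) (a b : Fin n) :
    hess (fun w => Real.log (U w + δ)) z a b = ((U z + δ)⁻¹ : ℝ) * hess U z a b -
      (((U z + δ) ^ 2)⁻¹ : ℝ) * (wd (false, a) (cu U) z * wd (true, b) (cu U) z) := by
  have h1 : ∀ᶠ s in 𝓝 (U z), HasDerivAt (fun s => Real.log (s + δ)) ((s + δ)⁻¹) s := by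
    have : ∀ᶠ s in 𝓝 (U z), 0 < s + δ :=
      (continuous_id.add continuous_const).continuousAt.eventually (lt_mem_nhds hp)
    filter_upwards [this] with s hs
    have h := ((hasDerivAt_id s).add_const δ).log hs.ne'
    simpa using h
  have h2 : HasDerivAt (fun s : ℝ => (s + δ)⁻¹) (-((U z + δ) ^ 2)⁻¹) (U z) := by
    have h := ((hasDerivAt_id (U z)).add_const δ).inv hp.ne'
    have e : -((U z + δ) ^ 2)⁻¹ = -1 / (id (U z) + δ) ^ 2 := by
      simp only [id, neg_div, one_div]
    rw [e]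
    exact h
  rw [hess_comp_real (φ := fun s => Real.log (s + δ)) (φ' := fun s => (s + δ)⁻¹) hU h1 h2]
  push_cast
  ring

/-- `∂u` as a vector -/
def gr (u : Cn n → ℝ) (z : Cn n) : Fin n → ℂ := fun a => wd (false, a) (cu u) z

theorem star_gr {u : Cn n → ℝ} {z : Cn n} (hu : DifferentiableAt ℝ u z) (b : Fin n) :
    star (gr u z) b = wd (true, b) (cu u) z := by
  show conj (wd (false, b) (cu u) z) = _
  rw [conj_wd_real _ hu]
  rfl

theorem hess_log_add_mat {U : Cn n → ℝ} {z : Cn n} (δ : ℝ) (hU : ContDiffAt ℝ ∞ U z)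
    (hp : 0 < U z + δ) :
    hess (fun w => Real.log (U w + δ)) z = ((U z + δ)⁻¹ : ℝ) • hess U z -
      (((U z + δ) ^ 2)⁻¹ : ℝ) • Matrix.vecMulVec (gr U z) (star (gr U z)) := by
  ext a b
  rw [hess_log_add δ hU hp, Matrix.sub_apply, Matrix.smul_apply, Matrix.smul_apply,
    Matrix.vecMulVec_apply, star_gr (hU.differentiableAt (by simp))]
  simp only [gr, Complex.real_smul]

theorem hess_log_cmp {U : Cn n → ℝ} {z : Cn n} {δ : ℝ} (hδ : 0 ≤ δ) (hU : ContDiffAt ℝ ∞ U z)
    (hp : 0 < U z) :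
    hess (fun w => Real.log (U w + δ)) z = (U z / (U z + δ) : ℝ) • hess (fun w => Real.log (U w)) z
      + (δ / (U z * (U z + δ) ^ 2) : ℝ) • Matrix.vecMulVec (gr U z) (star (gr U z)) := by
  have hp' : 0 < U z + δ := by positivity
  have h0 := hess_log_add_mat 0 hU (by simpa using hp)
  simp only [add_zero] at h0
  rw [hess_log_add_mat δ hU hp', h0, smul_sub, smul_smul, smul_smul, sub_add, ← sub_smul]
  congr 2
  · field_simp
  · field_simp
    ring

theorem hess_of_min {u : Cn n → ℝ} {z : Cn n} (hu : ContDiffAt ℝ ∞ u z) (hm : IsLocalMin u z) :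
    (hess u z).PosSemidef := by
  refine posSemidef_hess hu fun v => ?_
  have h2 : ContDiffAt ℝ 2 u z := hu.of_le (WithTop.coe_le_coe.2 le_top)
  unfold lev
  rw [iteratedFDeriv_two_apply, iteratedFDeriv_two_apply]
  exact add_nonneg (Crest.Agent.R273.C0a_390.fderiv2_nonneg h2 hm _)
    (Crest.Agent.R273.C0a_390.fderiv2_nonneg h2 hm _)

theorem cd_hol {S : Cn n → ℂ} {z : Cn n} (hS : ∀ᶠ w in 𝓝 z, DifferentiableAt ℂ S w) :
    ContDiffAt ℝ ∞ S z := by
  obtain ⟨U, hU, hUo, hUz⟩ := eventually_nhds_iff.1 hS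
  have h1 : DifferentiableOn ℂ S U := fun w hw => (hU w hw).differentiableWithinAt
  exact (((Crest.Agent.R266.SCV.contDiffOn_omega_of_differentiableOn hUo h1).restrict_scalars
    ℝ).of_le le_top).contDiffAt (hUo.mem_nhds hUz)

/-- `∂∂̄ log (|S|² W + δ) ≥ |S|² W / (|S|² W + δ) ∂∂̄ log W` -/
theorem hess_lse {S : Cn n → ℂ} {W : Cn n → ℝ} {z : Cn n} {δ : ℝ} (hδ : 0 < δ)
    (hS : ∀ᶠ w in 𝓝 z, DifferentiableAt ℂ S w) (hW : ContDiffAt ℝ ∞ W z) (hW0 : 0 < W z) :
    (hess (fun w => Real.log (‖S w‖ ^ 2 * W w + δ)) z -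
      (‖S z‖ ^ 2 * W z / (‖S z‖ ^ 2 * W z + δ) : ℝ) •
        hess (fun w => Real.log (W w)) z).PosSemidef := by
  have hSc := cd_hol hS
  have hU : ContDiffAt ℝ ∞ (fun w => ‖S w‖ ^ 2 * W w) z := (hSc.norm_sq ℝ).mul hW
  have hWp : ∀ᶠ w in 𝓝 z, 0 < W w := hW.continuousAt.eventually (lt_mem_nhds hW0)
  by_cases h0 : S z = 0
  · rw [h0]
    simp only [norm_zero, ne_eq, OfNat.ofNat_ne_zero, not_false_eq_true, zero_pow, zero_mul,
      zero_add, zero_div, zero_smul, sub_zero]
    refine hess_of_min ((hU.add contDiffAt_const).log ?_) ?_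
    · rw [h0]; simpa using hδ.ne'
    · filter_upwards [hWp] with w hw
      simp only [h0, norm_zero, ne_eq, OfNat.ofNat_ne_zero, not_false_eq_true, zero_pow, zero_mul,
        zero_add]
      refine Real.log_le_log hδ ?_
      have : 0 ≤ ‖S w‖ ^ 2 * W w := by positivity
      linarith
  · have hp : 0 < ‖S z‖ ^ 2 * W z := by
      have := norm_pos_iff.2 h0
      positivity
    have h1 := hess_log_cmp (U := fun w => ‖S w‖ ^ 2 * W w) hδ.le hU hp
    have h2 : hess (fun w => Real.log (‖S w‖ ^ 2 * W w)) z = hess (fun w => Real.log (W w)) z := by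
      have h3 : (fun w => Real.log (‖S w‖ ^ 2 * W w)) =ᶠ[𝓝 z]
          fun w => (fun w => Real.log (‖S w‖ ^ 2)) w + (fun w => Real.log (W w)) w := by
        filter_upwards [hWp, hSc.continuousAt.eventually_ne h0] with w hw hw'
        exact Real.log_mul (pow_ne_zero 2 (norm_ne_zero_iff.2 hw')) hw.ne'
      rw [hess_congr h3, hess_add ((hSc.norm_sq ℝ).log (pow_ne_zero 2 (norm_ne_zero_iff.2 h0)))
        (hW.log hW0.ne'), hess_log_norm hS h0, zero_add]
    rw [h1, h2, add_sub_cancel_left]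
    refine Matrix.PosSemidef.smul (Matrix.posSemidef_vecMulVec_self_star _) ?_
    positivity

end

end Crest.Agent.X261.E0.ClA
end

-- ▼ part X261/E0/ClB
section

/-!
# X261 (S0399), E0 (helper69), CLOSED part B: the Bochner argument

`v` a holomorphic polyvector field with values in `N`, `h` a metric on `K⁻¹ N`, `s` a holomorphic
section of `(K⁻¹ N)⁻¹ ^ m`, `σ = |s|²`.  With the metrics `h (σ + δ) ^ (1 / m)` the
Bochner-Kodaira-Nakano identity gives `σ δ_h v + (1 / m) i_{∂σ} v = 0` (`es_zero`).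
-/

set_option autoImplicit false
set_option linter.unusedSectionVars false

open Set Filter Topology Complex Matrix MeasureTheory
open scoped ContDiff Matrix ComplexConjugate ComplexOrder

namespace Crest.Agent.X261.E0.ClB

open Crest.Agent.R275 Crest.Agent.R275.Geo Crest.Agent.R275.Core144
open Crest.Agent.R275.Pai323 Crest.Agent.R275.C1d194
open Crest.Agent.R275.SerG398 (lint dens)
open Crest.Agent.R275.OmT75 (dl)
open Crest.Agent.R273
open Crest.Agent.R273.Defs_333 Crest.Agent.R273.HM_333 Crest.Agent.R273.Kah_333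
open Crest.Agent.R273.Hess_333 Crest.Agent.R273.HessB_333
open Crest.Agent.R273.Fock_243 Crest.Agent.R273.Calc_243 Crest.Agent.R273.Bkn_243
open Crest.Agent.R273.Pos_243
open Crest.Agent.R273.StV_37 Crest.Agent.R273.BKNa_37
open Crest.Agent.R273.BKNb_37 Crest.Agent.R273.BKNc_37 Crest.Agent.R273.BKNd_37
open Crest.Agent.X261.E0.ClA

noncomputable section

variable {n : ℕ} {M : Type} [TopologicalSpace M] {A : Atl n M} {L N : LB A}

/-! ### the squared length of a section as a function -/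

/-- `|s|²` -/
def sg (H : HM L) (s : A.ι → M → ℂ) (x : M) : ℝ := nsq H s (A.cover x).choose x

theorem sg_eq (H : HM L) {s : A.ι → M → ℂ} (hs : IsHS L univ s) {i : A.ι} {x : M}
    (hx : x ∈ (A.e i).source) : sg H s x = ‖s i x‖ ^ 2 * H.w i x :=
  nsq_indep H hs ⟨(A.cover x).choose_spec, hx⟩ (mem_univ x)

theorem sg_nonneg (H : HM L) (s : A.ι → M → ℂ) (x : M) : 0 ≤ sg H s x :=
  mul_nonneg (sq_nonneg _) (H.pos _ x (A.cover x).choose_spec).le

theorem smAt_hol {i : A.ι} {f : M → ℂ} (h : HolAt A i univ f) : A.SmAt i f := by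
  have := h.contDiffOn isOpen_univ
  rw [preimage_univ, inter_univ] at this
  exact this

theorem sg_sm (H : HM L) {s : A.ι → M → ℂ} (hs : IsHS L univ s) : A.Sm (sg H s) := by
  intro i
  have h1 : ContDiffOn ℝ ∞ (fun z => ‖s i ((A.e i).symm z)‖ ^ 2 * H.w i ((A.e i).symm z))
      (A.e i).target := (ContDiffOn.norm_sq ℝ (smAt_hol (hs.hol i))).mul (H.sm i)
  exact h1.congr fun z hz => sg_eq H hs ((A.e i).map_target hz)

theorem contAt_of_smAt {W : Type*} [NormedAddCommGroup W] [NormedSpace ℝ W] {i : A.ι} {f : M → W}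
    (h : A.SmAt i f) {x : M} (hx : x ∈ (A.e i).source) : ContinuousAt f x := by
  have h1 : ContinuousAt (fun z => f ((A.e i).symm z)) (A.e i x) :=
    (ContDiffOn.continuousOn h).continuousAt
      ((A.e i).open_target.mem_nhds ((A.e i).map_source hx))
  have h2 := ContinuousAt.comp (f := A.e i) h1 ((A.e i).continuousAt hx)
  refine h2.congr ?_
  filter_upwards [(A.e i).open_source.mem_nhds hx] with y hy
  simp [(A.e i).left_inv hy]

theorem cont_of_sm {f : M → ℝ} (h : A.Sm f) : Continuous f :=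
  continuous_iff_continuousAt.2 fun x => contAt_of_smAt (h _) (A.cover x).choose_spec

/-! ### algebra -/

theorem Cv_sub (G : Matrix (FI n) (FI n) ℂ) (c : ℂ) (t t' : Matrix (Fin n) (Fin n) ℂ)
    (a b : FI n → ℂ) : Cv G (c • t - t') a b = c * Cv G t a b - Cv G t' a b := by
  unfold Cv
  simp only [Finset.mul_sum, ← Finset.sum_sub_distrib]
  refine Finset.sum_congr rfl fun k _ => Finset.sum_congr rfl fun l _ => ?_
  simp only [Matrix.sub_apply, Matrix.smul_apply, smul_eq_mul]
  ring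

theorem quad_le {G : Matrix (FI n) (FI n) ℂ} (hG : G.PosSemidef) (a b : ℝ) (p q : FI n → ℂ) :
    star ((a : ℂ) • p - (b : ℂ) • q) ⬝ᵥ (G *ᵥ ((a : ℂ) • p - (b : ℂ) • q)) ≤
      2 * (a : ℂ) ^ 2 * (star p ⬝ᵥ (G *ᵥ p)) + 2 * (b : ℂ) ^ 2 * (star q ⬝ᵥ (G *ᵥ q)) := by
  have h1 := hG.dotProduct_mulVec_nonneg ((a : ℂ) • p + (b : ℂ) • q)
  rw [← sub_nonneg]
  convert h1 using 1
  simp only [star_sub, star_add, star_smul, Matrix.mulVec_sub, Matrix.mulVec_add,
    Matrix.mulVec_smul, sub_dotProduct, add_dotProduct, dotProduct_sub, dotProduct_add,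
    smul_dotProduct, dotProduct_smul, smul_eq_mul, RCLike.star_def, Complex.conj_ofReal]
  ring

/-! ### densities -/

theorem isD_mul {f : A.ι → M → ℂ} (hf : IsD A f) {μ : M → ℝ} (hμ : A.Sm μ) :
    IsD A (fun i x => (μ x : ℂ) * f i x) where
  sm i := ContDiffOn.mul (smAt_ofReal (j := i) (hμ i)) (hf.sm i)
  tr i j x hx := by rw [hf.tr i j x hx]; ring

theorem isD_cmul {f : A.ι → M → ℂ} (hf : IsD A f) (c : ℂ) : IsD A (fun i x => c * f i x) where
  sm i := ContDiffOn.mul contDiffOn_const (hf.sm i)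
  tr i j x hx := by rw [hf.tr i j x hx]; ring

theorem isD_add {f g : A.ι → M → ℂ} (hf : IsD A f) (hg : IsD A g) :
    IsD A (fun i x => f i x + g i x) where
  sm i := ContDiffOn.add (hf.sm i) (hg.sm i)
  tr i j x hx := by rw [hf.tr i j x hx, hg.tr i j x hx]; ring

section Int

variable [T2Space M] [CompactSpace M]

theorem totc_mono (P : Part A) {f g : A.ι → M → ℂ} (hf : IsD A f) (hg : IsD A g)
    (h : ∀ i, ∀ x ∈ (A.e i).source, f i x ≤ g i x) : totc P f ≤ totc P g := by
  have h1 : IsD A (fun i x => g i x - f i x) :=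
    { sm := fun i => ContDiffOn.sub (hg.sm i) (hf.sm i)
      tr := fun i j x hx => by rw [hf.tr i j x hx, hg.tr i j x hx]; ring }
  have h2 := totc_nonneg P h1 fun i x hx => sub_nonneg.2 (h i x hx)
  unfold totc at h2 ⊢
  rwa [tot_sub P _ hg.sm hf.sm, sub_nonneg] at h2

theorem totc_small (P : Part A) {f : A.ι → M → ℂ} (hf : ∀ i, A.SmAt i (f i)) :
    ∃ C : ℝ, ∀ (μ : M → ℝ) (ε : ℝ), (∀ x, |μ x| ≤ ε) →
      ‖totc P (fun i x => (μ x : ℂ) * f i x)‖ ≤ ε * C := by
  refine ⟨∑ i ∈ Fn P (isCompact_univ : IsCompact (univ : Set M)),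
    ∫ y, ‖rd A i (fun x => (P.ψ i x : ℂ) * f i x) y‖, fun μ ε hμ => ?_⟩
  unfold totc tot
  rw [Finset.mul_sum]
  refine (norm_sum_le _ _).trans (Finset.sum_le_sum fun i _ => ?_)
  unfold SerG398.lint
  rw [← integral_const_mul]
  refine norm_integral_le_of_norm_le ((cc_psi P (hf i)).integrable.norm.const_mul ε)
    (Eventually.of_forall fun y => ?_)
  by_cases hy : y ∈ Ui A i
  · rw [rd_of_mem hy, rd_of_mem hy, mul_left_comm, norm_mul, Complex.norm_real, Real.norm_eq_abs]
    exact mul_le_mul_of_nonneg_right (hμ _) (norm_nonneg _)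
  · rw [rd_off hy, rd_off hy]
    simp

/-- the identity for holomorphic fields -/
theorem bkn_hol (P : Part A) (K : Kah A) (h : HM ((KB A)⁻¹ * N)) {v : A.ι → M → FI n → ℂ}
    (hv : IsV N v) (hh : ∀ i, ∀ x ∈ (A.e i).source, ∀ k, dbV v i k x = 0) :
    totc P (inG K h (delV h v) (delV h v)) = totc P (inT K h v v) := by
  have h1 := bknc P K h hv hv
  have hU : totc P (inU K h v v) = 0 := by
    have e1 : totc P (inU K h v v) = totc P (fun _ _ => 0) :=
      tot_congr P _ fun i _ x hx => by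
        unfold inU
        rw [duV_of_hol K hv.sm hh i hx]
        simp
    rw [e1, totc_zero]
  have hD : totc P (inD K h v v) = 0 := by
    have e1 : totc P (inD K h v v) = totc P (fun _ _ => 0) :=
      tot_congr P _ fun i _ x hx => by
        unfold inD T1
        simp [hh i x hx]
    rw [e1, totc_zero]
  rw [hD, hU, zero_add, zero_add] at h1
  exact h1.symm

end Int

/-! ### twisting the metric -/

theorem delV_tw (h : HM L) {f : M → ℝ} (hf : A.Sm f) {v : A.ι → M → FI n → ℂ}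
    (hs : ∀ i T, A.SmAt i (fun x => v i x T)) (i : A.ι) {x : M} (hx : x ∈ (A.e i).source) :
    delV (tw h f hf) v i x = delV h v i x -
      ∑ l, dl A i l (fun y => (f y : ℂ)) x • (iW (ep l) *ᵥ v i x) := by
  have hz := (A.e i).map_source hx
  rw [delV_eq _ hs i hx, delV_eq _ hs i hx]
  unfold del
  rw [← Finset.sum_sub_distrib]
  refine Finset.sum_congr rfl fun l _ => ?_
  have h1 : lamr (tw h f hf) i =ᶠ[𝓝 (A.e i x)]
      fun z => lamr h i z + - (f ((A.e i).symm z) : ℂ) := by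
    filter_upwards [(A.e i).open_target.mem_nhds hz] with z hz'
    unfold lamr
    rw [wt_tw h f hf i hz']
    push_cast
    ring
  have h2 : Sm (A.e i x) (fun z => (f ((A.e i).symm z) : ℂ)) := sm_rd (smAt_ofReal (hf i)) hz
  have h3 : rV v i (A.e i x) = v i x := by unfold rV; rw [(A.e i).left_inv hx]
  rw [dS_congr h1, dS_add (sm_lamr h i hz).diff (Sm.diff h2.neg), dS_neg, dl_eq_dS, h3, add_smul,
    ← add_assoc, Matrix.mulVec_add, neg_smul, Matrix.mulVec_neg, Matrix.mulVec_smul,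
    sub_eq_add_neg]

variable {m : ℕ} {s v' : A.ι → M → ℂ}

/-- `-(1/m) log (σ + δ)` -/
def fd (σ : M → ℝ) (m : ℕ) (δ : ℝ) (x : M) : ℝ := -(1 / (m : ℝ)) * Real.log (σ x + δ)

theorem fd_sm {σ : M → ℝ} (hσ : A.Sm σ) (h0 : ∀ x, 0 ≤ σ x) (m : ℕ) {δ : ℝ} (hδ : 0 < δ) :
    A.Sm (fd σ m δ) := fun i =>
  contDiffOn_const.mul (((hσ i).add contDiffOn_const).log fun z _ => by
    have := h0 ((A.e i).symm z)
    positivity)

theorem dl_fd {σ : M → ℝ} (hσ : A.Sm σ) (h0 : ∀ x, 0 ≤ σ x) (m : ℕ) {δ : ℝ} (hδ : 0 < δ)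
    {i : A.ι} {x : M} (hx : x ∈ (A.e i).source) (l : Fin n) :
    dl A i l (fun y => (fd σ m δ y : ℂ)) x =
      -(1 / (m : ℂ)) * ((σ x : ℂ) + δ)⁻¹ * dl A i l (fun y => (σ y : ℂ)) x := by
  have hz := (A.e i).map_source hx
  have hd : DifferentiableAt ℝ (fun z => σ ((A.e i).symm z)) (A.e i x) :=
    (sm_contDiffAt hσ i hz).differentiableAt (by simp)
  have hp : σ ((A.e i).symm (A.e i x)) + δ ≠ 0 := by
    have := h0 ((A.e i).symm (A.e i x))
    positivity
  have h1 : HasDerivAt (fun t : ℝ => -(1 / (m : ℝ)) * Real.log (t + δ))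
      (-(1 / (m : ℝ)) * (σ ((A.e i).symm (A.e i x)) + δ)⁻¹) (σ ((A.e i).symm (A.e i x))) := by
    have h2 := (((hasDerivAt_id (σ ((A.e i).symm (A.e i x)))).add_const δ).log hp).const_mul
      (-(1 / (m : ℝ)))
    simpa using h2
  have h2 := wd_comp_real (false, l) hd h1
  rw [wd_eq_dS, wd_eq_dS, (A.e i).left_inv hx] at h2
  rw [dl_eq_dS, dl_eq_dS]
  refine h2.trans ?_
  push_cast
  rfl

/-- the field `σ δ_h v + (1/m) i_{∂σ} v` -/
def Es (h : HM L) (σ : M → ℝ) (m : ℕ) (v : A.ι → M → FI n → ℂ) (i : A.ι) (x : M) : FI n → ℂ :=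
  (σ x : ℂ) • delV h v i x +
    (1 / (m : ℂ)) • ∑ l, dl A i l (fun y => (σ y : ℂ)) x • (iW (ep l) *ᵥ v i x)

theorem Es_eq (h : HM L) {σ : M → ℝ} (hσ : A.Sm σ) (h0 : ∀ x, 0 ≤ σ x) (m : ℕ) {δ : ℝ}
    (hδ : 0 < δ) {v : A.ι → M → FI n → ℂ} (hs : ∀ i T, A.SmAt i (fun x => v i x T)) (i : A.ι)
    {x : M} (hx : x ∈ (A.e i).source) :
    Es h σ m v i x = ((σ x + δ : ℝ) : ℂ) • delV (tw h (fd σ m δ) (fd_sm hσ h0 m hδ)) v i x -
      (δ : ℂ) • delV h v i x := by
  have hp : (σ x : ℂ) + δ ≠ 0 := by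
    have h1 := h0 x
    have h2 : σ x + δ ≠ 0 := by positivity
    exact_mod_cast h2
  rw [delV_tw h _ hs i hx]
  unfold Es
  simp only [dl_fd hσ h0 m hδ hx]
  rw [smul_sub, Finset.smul_sum, Finset.smul_sum]
  have h1 : ∀ l, ((σ x + δ : ℝ) : ℂ) • ((-(1 / (m : ℂ)) * ((σ x : ℂ) + δ)⁻¹ *
      dl A i l (fun y => (σ y : ℂ)) x) • (iW (ep l) *ᵥ v i x)) =
      - ((1 / (m : ℂ)) • dl A i l (fun y => (σ y : ℂ)) x • (iW (ep l) *ᵥ v i x)) := by
    intro l
    rw [smul_smul, smul_smul, ← neg_smul]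
    congr 1
    push_cast
    field_simp
  rw [Finset.sum_congr rfl fun l _ => h1 l, Finset.sum_neg_distrib]
  push_cast
  module

theorem Es_isV (h : HM ((KB A)⁻¹ * N)) {σ : M → ℝ} (hσ : A.Sm σ) (h0 : ∀ x, 0 ≤ σ x) (m : ℕ)
    {v : A.ι → M → FI n → ℂ} (hv : IsV N v) : IsV N (Es h σ m v) := by
  have h1 := delV_isV (tw h (fd σ m 1) (fd_sm hσ h0 m one_pos)) hv
  have h2 := delV_isV h hv
  constructor
  · intro i T
    have h3 : A.SmAt i (fun x => ((σ x + 1 : ℝ) : ℂ) *
        delV (tw h (fd σ m 1) (fd_sm hσ h0 m one_pos)) v i x T - ((1 : ℝ) : ℂ) * delV h v i x T) :=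
      ContDiffOn.sub (ContDiffOn.mul (smAt_ofReal (j := i) (χ := fun x => σ x + 1)
        (ContDiffOn.add (hσ i) contDiffOn_const)) (h1.sm i T))
        (ContDiffOn.mul contDiffOn_const (h2.sm i T))
    refine ContDiffOn.congr h3 fun z hz => ?_
    show Es h σ m v i _ T = _
    rw [Es_eq h hσ h0 m one_pos hv.sm i ((A.e i).map_target hz)]
    rfl
  · intro i j x hx
    rw [Es_eq h hσ h0 m one_pos hv.sm i hx.1, Es_eq h hσ h0 m one_pos hv.sm j hx.2,
      h1.tr i j x hx, h2.tr i j x hx, Matrix.mulVec_sub, Matrix.mulVec_smul, Matrix.mulVec_smul]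
    module

/-- the curvature of the twisted metric -/
theorem cur_fd (h : HM L) (hm : 0 < m) (hs : IsHS (L⁻¹ ^ m) univ s) {δ : ℝ} (hδ : 0 < δ)
    (i : A.ι) {x : M} (hx : x ∈ (A.e i).source) :
    (((δ / (sg (pow (inv h) m) s x + δ) : ℝ) : ℂ) • cur h i x -
      cur (tw h (fd (sg (pow (inv h) m) s) m δ)
        (fd_sm (sg_sm _ hs) (sg_nonneg _ s) m hδ)) i x).PosSemidef := by
  have hz := (A.e i).map_source hx
  set H := pow (inv h) m with hH
  have hS : ∀ᶠ w in 𝓝 (A.e i x), DifferentiableAt ℂ (fun z => s i ((A.e i).symm z)) w := by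
    filter_upwards [(A.e i).open_target.mem_nhds hz] with w hw
    have := (hs.hol i).diffAt isOpen_univ ((A.e i).map_target hw) (mem_univ _)
    rwa [(A.e i).right_inv hw] at this
  have hW : ContDiffAt ℝ ∞ (fun z => H.w i ((A.e i).symm z)) (A.e i x) :=
    ContDiffOn.contDiffAt (H.sm i) ((A.e i).open_target.mem_nhds hz)
  have hW0 : 0 < H.w i ((A.e i).symm (A.e i x)) := H.pos i _ ((A.e i).map_target hz)
  have h1 := hess_lse hδ hS hW hW0
  rw [(A.e i).left_inv hx, ← sg_eq H hs hx] at h1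
  have h2 : hess (fun w => Real.log (H.w i ((A.e i).symm w))) (A.e i x) = (m : ℂ) • cur h i x := by
    have h3 : cur H i x = - ((m : ℂ) • cur h i x) := by
      rw [hH, cur_pow _ _ _ hx, cur_inv _ _ hx, smul_neg]
    have h4 : cur H i x = - hess (fun w => Real.log (H.w i ((A.e i).symm w))) (A.e i x) :=
      hess_neg (hW.log hW0.ne')
    exact neg_injective (h4.symm.trans h3)
  have hσ := sg_nonneg H s x
  have h5 : hsf A (fd (sg H s) m δ) i x = (-(1 / (m : ℝ)) : ℝ) • hess (fun w => Real.log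
      (‖s i ((A.e i).symm w)‖ ^ 2 * H.w i ((A.e i).symm w) + δ)) (A.e i x) := by
    have h6 : (fun z => fd (sg H s) m δ ((A.e i).symm z)) =ᶠ[𝓝 (A.e i x)] fun w =>
        -(1 / (m : ℝ)) * Real.log (‖s i ((A.e i).symm w)‖ ^ 2 * H.w i ((A.e i).symm w) + δ) := by
      filter_upwards [(A.e i).open_target.mem_nhds hz] with w hw
      unfold fd
      rw [sg_eq H hs ((A.e i).map_target hw)]
    unfold hsf
    rw [hess_congr h6, hess_const_mul]
    · rfl
    · refine ((((cd_hol hS).norm_sq ℝ).mul hW).add contDiffAt_const).log ?_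
      positivity
  rw [cur_tw _ _ _ hx, h5]
  rw [h2] at h1
  have hm' : (0 : ℝ) < m := by exact_mod_cast hm
  have h7 := h1.smul (show (0 : ℝ) ≤ 1 / (m : ℝ) by positivity)
  convert h7 using 1
  ext a b
  simp only [Matrix.sub_apply, Matrix.add_apply, Matrix.smul_apply, smul_eq_mul,
    Complex.real_smul]
  have h8 : ((sg H s x : ℂ) + δ) ≠ 0 := by
    have h9 : sg H s x + δ ≠ 0 := by positivity
    exact_mod_cast h9
  have h9 : (m : ℂ) ≠ 0 := by exact_mod_cast hm.ne'
  push_cast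
  field_simp
  ring

/-! ### elementary inequalities -/

theorem rho_pow {t : ℝ} (ht : 0 < t) (hm : 0 < m) :
    Real.exp (- (-(1 / (m : ℝ)) * Real.log t)) ^ m = t := by
  have hm' : (m : ℝ) ≠ 0 := by exact_mod_cast hm.ne'
  rw [← Real.exp_nat_mul]
  have : (m : ℝ) * - (-(1 / (m : ℝ)) * Real.log t) = Real.log t := by field_simp
  rw [this, Real.exp_log ht]

theorem mu_le {ρ ε : ℝ} (hε : 0 < ε) (hρ : 0 < ρ) (hm : 0 < m) (h : ε ^ m ≤ ρ ^ m) :
    ρ * (ε ^ m / ρ ^ m) ≤ ε := by
  obtain ⟨k, rfl⟩ := Nat.exists_eq_succ_of_ne_zero hm.ne'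
  have h1 : ε ≤ ρ := (pow_le_pow_iff_left₀ hε.le hρ.le hm.ne').1 h
  have h2 : ε ^ k ≤ ρ ^ k := pow_le_pow_left₀ hε.le h1 k
  rw [pow_succ, pow_succ, ← mul_div_assoc, div_le_iff₀ (by positivity)]
  have h3 : 0 ≤ ε * ρ := by positivity
  nlinarith [mul_le_mul_of_nonneg_left h2 h3]

theorem sq_le {ρ R : ℝ} (hρ : 0 < ρ) (hm : 0 < m) (hR : 1 ≤ R) (h : ρ ^ m ≤ R) :
    (ρ ^ m) ^ 2 ≤ R ^ 2 * ρ := by
  rcases le_total ρ 1 with h1 | h1
  · have h2 : (ρ ^ m) ^ 2 ≤ ρ := by
      rw [← pow_mul]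
      exact pow_le_of_le_one hρ.le h1 (by omega)
    have h3 : 1 ≤ R ^ 2 := one_le_pow₀ hR
    nlinarith
  · have h2 : (ρ ^ m) ^ 2 ≤ R ^ 2 := pow_le_pow_left₀ (by positivity) h 2
    have h3 : 0 ≤ R ^ 2 := by positivity
    nlinarith

/-! ### the main estimate -/

theorem es_zero [T2Space M] [CompactSpace M] (P : Part A) (K : Kah A) (h : HM ((KB A)⁻¹ * N))
    {v : A.ι → M → FI n → ℂ} (hv : IsV N v) (hh : ∀ i, ∀ x ∈ (A.e i).source, ∀ k, dbV v i k x = 0)
    (hm : 0 < m) (hs : IsHS (((KB A)⁻¹ * N)⁻¹ ^ m) univ s) (i : A.ι) {x : M}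
    (hx : x ∈ (A.e i).source) : Es h (sg (pow (inv h) m) s) m v i x = 0 := by
  set σ := sg (pow (inv h) m) s with hσ
  have hσs : A.Sm σ := sg_sm _ hs
  have hσ0 : ∀ x, 0 ≤ σ x := sg_nonneg _ s
  have hE := Es_isV h hσs hσ0 m hv
  obtain ⟨R0, hR0⟩ := (isCompact_range (cont_of_sm hσs)).bddAbove
  set R : ℝ := max R0 0 + 1 with hR
  have hR1 : 1 ≤ R := by have := le_max_right R0 0; linarith
  have hσR : ∀ y, σ y + 1 ≤ R := fun y => by
    have := (hR0 ⟨y, rfl⟩).trans (le_max_left R0 0)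
    linarith
  obtain ⟨C, hC⟩ := totc_small P (inT_isD (K := K) h hv hv).sm
  have hd := delV_isV h hv
  set Z := totc P (inG K h (Es h σ m v) (Es h σ m v)) with hZ
  set Y := totc P (inG K h (delV h v) (delV h v)) with hY
  have hZ0 : 0 ≤ Z := totc_nonneg P (inG_isD h hE hE) fun i x hx => inG_nonneg K h _ i hx
  have key : ∀ ε : ℝ, 0 < ε → ε ≤ 1 → Z.re ≤ ε * (2 * R ^ 2 * C + 2 * ‖Y‖) := by
    intro ε hε hε1
    have hδ : 0 < ε ^ m := by positivity
    have hδ1 : ε ^ m ≤ ε := pow_le_of_le_one hε.le hε1 hm.ne'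
    set h' := tw h (fd σ m (ε ^ m)) (fd_sm hσs hσ0 m hδ) with hh'
    have hd' := delV_isV h' hv
    have hρ : ∀ y, Real.exp (- fd σ m (ε ^ m) y) ^ m = σ y + ε ^ m := fun y =>
      rho_pow (by have := hσ0 y; positivity) hm
    -- first inequality
    have h1 : Z ≤ totc P (fun i x => (2 * (R : ℂ) ^ 2) * inG K h' (delV h' v) (delV h' v) i x +
        (2 * ((ε ^ m : ℝ) : ℂ) ^ 2) * inG K h (delV h v) (delV h v) i x) := by
      refine totc_mono P (inG_isD h hE hE) (isD_add (isD_cmul (inG_isD h' hd' hd') _)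
        (isD_cmul (inG_isD h hd hd) _)) fun j y hy => ?_
      unfold inG
      rw [Es_eq h hσs hσ0 m hδ hv.sm j hy]
      have hG := (G_posDef K j hy).posSemidef
      refine (mul_le_mul_of_nonneg_left (quad_le hG _ _ _ _) (w_nonneg h j hy)).trans ?_
      have h2 : (0 : ℂ) ≤ star (delV h' v j y) ⬝ᵥ (Gam (K.g j y)ᵀ *ᵥ delV h' v j y) :=
        hG.dotProduct_mulVec_nonneg _
      have h3 : (σ y + ε ^ m) ^ 2 ≤ R ^ 2 * Real.exp (- fd σ m (ε ^ m) y) := by
        rw [← hρ y]
        refine sq_le (Real.exp_pos _) hm hR1 ?_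
        rw [hρ y]
        have := hσR y
        linarith
      have h4 : h.w j y * (2 * (σ y + ε ^ m) ^ 2) ≤
          2 * R ^ 2 * (h.w j y * Real.exp (- fd σ m (ε ^ m) y)) := by
        have := h.pos j y hy
        nlinarith
      have h5 : ((h.w j y * (2 * (σ y + ε ^ m) ^ 2) : ℝ) : ℂ) ≤
          ((2 * R ^ 2 * (h.w j y * Real.exp (- fd σ m (ε ^ m) y)) : ℝ) : ℂ) := by
        exact_mod_cast h4
      have h6 := mul_le_mul_of_nonneg_right h5 h2
      have h7 : (h'.w j y : ℂ) = ((h.w j y * Real.exp (- fd σ m (ε ^ m) y) : ℝ) : ℂ) := rfl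
      rw [h7, mul_add]
      refine add_le_add (le_of_eq_of_le ?_ (h6.trans (le_of_eq ?_))) (le_of_eq ?_)
      · push_cast; ring
      · push_cast; ring
      · ring
    -- second inequality
    set μ : M → ℝ := fun y => Real.exp (- fd σ m (ε ^ m) y) * (ε ^ m / (σ y + ε ^ m)) with hμ
    have hμs : A.Sm μ := fun j =>
      (Real.contDiff_exp.comp_contDiffOn (fd_sm hσs hσ0 m hδ j).neg).mul
        (contDiffOn_const.div ((hσs j).add contDiffOn_const) fun z _ => by
          have := hσ0 ((A.e j).symm z)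
          positivity)
    have h2 : totc P (inT K h' v v) ≤ totc P (fun i x => (μ x : ℂ) * inT K h v v i x) := by
      refine totc_mono P (inT_isD h' hv hv) (isD_mul (inT_isD h hv hv) hμs) fun j y hy => ?_
      have h3 := Cv_nonneg (G_posDef K j hy).posSemidef (cur_fd h hm hs hδ j hy) (v j y)
      rw [Cv_sub, sub_nonneg] at h3
      unfold inT
      refine (mul_le_mul_of_nonneg_left h3 (w_nonneg h' j hy)).trans (le_of_eq ?_)
      have h7 : (h'.w j y : ℂ) = ((h.w j y * Real.exp (- fd σ m (ε ^ m) y) : ℝ) : ℂ) := rfl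
      rw [h7, hμ]
      simp only [← hσ]
      push_cast
      ring
    have h3 := hC μ ε fun y => by
      have h4 := hσ0 y
      rw [abs_of_nonneg (by rw [hμ]; positivity), hμ]
      simp only
      rw [← hρ y]
      refine mu_le hε (Real.exp_pos _) hm ?_
      rw [hρ y]
      linarith
    unfold totc at h1
    rw [tot_add P _ (isD_cmul (inG_isD h' hd' hd') _).sm (isD_cmul (inG_isD h hd hd) _).sm,
      tot_smul, tot_smul] at h1
    have h4 := bkn_hol P K h' hv hh
    unfold totc at h4 h2 h3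
    rw [h4] at h1
    have h5 := (Complex.le_def.1 h1).1
    have h6 := (Complex.le_def.1 h2).1
    have h7 := (Complex.re_le_norm _).trans h3
    have h8 : (2 * (R : ℂ) ^ 2) = ((2 * R ^ 2 : ℝ) : ℂ) := by push_cast; ring
    have h9 : (2 * ((ε ^ m : ℝ) : ℂ) ^ 2) = ((2 * (ε ^ m) ^ 2 : ℝ) : ℂ) := by push_cast; ring
    rw [h8, h9, Complex.add_re, Complex.re_ofReal_mul, Complex.re_ofReal_mul] at h5
    have h10 : (tot P (Fn P (isCompact_univ : IsCompact (univ : Set M)))
        (inG K h (delV h v) (delV h v))).re ≤ ‖Y‖ := Complex.re_le_norm _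
    have h11 : (ε ^ m) ^ 2 ≤ ε := by nlinarith
    have h12 : 0 ≤ ‖Y‖ := norm_nonneg _
    have h13 : 0 ≤ 2 * R ^ 2 := by positivity
    have h14 := mul_le_mul_of_nonneg_left (h6.trans h7) h13
    have h15 : 2 * (ε ^ m) ^ 2 * (tot P (Fn P (isCompact_univ : IsCompact (univ : Set M)))
        (inG K h (delV h v) (delV h v))).re ≤ 2 * ε * ‖Y‖ := by
      have h16 := mul_le_mul_of_nonneg_left h10 (show 0 ≤ 2 * (ε ^ m) ^ 2 by positivity)
      nlinarith
    have h17 : Z.re = (tot P (Fn P (isCompact_univ : IsCompact (univ : Set M)))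
        (inG K h (Es h σ m v) (Es h σ m v))).re := rfl
    rw [h17]
    nlinarith
  have hZ1 : Z.re ≤ 0 := by
    have h1 : Tendsto (fun ε : ℝ => ε * (2 * R ^ 2 * C + 2 * ‖Y‖)) (𝓝[>] 0)
        (𝓝 (0 * (2 * R ^ 2 * C + 2 * ‖Y‖))) :=
      ((continuous_id.mul continuous_const).tendsto 0).mono_left nhdsWithin_le_nhds
    rw [zero_mul] at h1
    refine ge_of_tendsto h1 ?_
    filter_upwards [Ioc_mem_nhdsGT (show (0 : ℝ) < 1 from one_pos)] with ε hε
    exact key ε hε.1 hε.2
  have hZ2 : Z = 0 := by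
    have h1 := Complex.le_def.1 hZ0
    apply Complex.ext
    · exact le_antisymm hZ1 h1.1
    · exact h1.2.symm
  exact inG_eq_zero hx (totc_eq_zero P (inG_isD h hE hE)
    (fun i x hx => inG_nonneg K h _ i hx) hZ2 i hx)

end

end Crest.Agent.X261.E0.ClB
end

-- ▼ part X261/E0/UpA

/-!
# X261 (S0399), E0/Up (helper36), part A: local lemmas

* `Ord f z k`    : `f (z + y) = O (‖y‖ ^ k)`; `ord_iff` : the Taylor series starts in degree `k`;
* `Ord.fderiv`   : the Cauchy estimate;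
* `ord_of_slice` : a function which is "constant along a distribution up to a factor" vanishes to
                   order `D` as soon as it does so on a transversal;
* `schwarzO`     : the Schwarz lemma of order `k`;
* `finrank_ann_le`, `exists_transv` : the annihilator of a nonzero `p`-vector has dimension `≤ p`.
-/

set_option autoImplicit false
set_option linter.unusedSectionVars false

open Set Filter Topology Complex Metric Asymptotics Matrix
open scoped NNReal ENNReal

namespace Crest.Agent.X261.E0.UpL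

open Crest.Agent.R275.Geo Crest.Agent.R273.Sg1_101
open Crest.Agent.R273.Fock_243 Crest.Agent.R275.Kos798

noncomputable section

section Ord

variable {E : Type*} [NormedAddCommGroup E] [NormedSpace ℂ E]

/-- `f` vanishes to order `k` at `z` -/
def Ord (f : E → ℂ) (z : E) (k : ℕ) : Prop :=
  (fun y => f (z + y)) =O[𝓝 (0 : E)] fun y => ‖y‖ ^ k

theorem pow_isBigO {j k : ℕ} (h : j ≤ k) :
    (fun y : E => ‖y‖ ^ k) =O[𝓝 (0 : E)] fun y => ‖y‖ ^ j := by
  refine IsBigO.of_bound 1 ?_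
  filter_upwards [closedBall_mem_nhds (0 : E) one_pos] with y hy
  rw [mem_closedBall, dist_zero_right] at hy
  rw [one_mul, norm_pow, norm_pow, norm_norm]
  exact pow_le_pow_of_le_one (norm_nonneg _) hy h

theorem Ord.mono {f : E → ℂ} {z : E} {j k : ℕ} (h : Ord f z k) (hj : j ≤ k) : Ord f z j :=
  IsBigO.trans h (pow_isBigO hj)

theorem ord_zero {f : E → ℂ} {z : E} (hf : ContinuousAt f z) : Ord f z 0 := by
  have h1 : ContinuousAt (fun y => f (z + y)) 0 :=
    ContinuousAt.comp (by rwa [add_zero]) (by fun_prop)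
  have h2 := h1.tendsto.isBigO_one ℝ
  unfold Ord
  simpa using h2

theorem ord_iff_ps {f : E → ℂ} {z : E} {q : FormalMultilinearSeries ℂ E ℂ}
    (hq : HasFPowerSeriesAt f q z) (k : ℕ) :
    Ord f z k ↔ ∀ j < k, ∀ y, q j (fun _ => y) = 0 := by
  constructor
  · intro h j
    induction j using Nat.strong_induction_on with
    | _ j ih =>
      intro hj
      have h1 := hq.isBigO_sub_partialSum_pow (j + 1)
      have h2 : ∀ y, q.partialSum (j + 1) y = q j (fun _ => y) := by
        intro y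
        rw [FormalMultilinearSeries.partialSum, Finset.sum_range_succ,
          Finset.sum_eq_zero fun i hi => ih i (Finset.mem_range.1 hi)
            ((Finset.mem_range.1 hi).trans hj) y, zero_add]
      simp only [h2] at h1
      have h3 := (IsBigO.sub (h.mono (Nat.succ_le_of_lt hj)) h1)
      simp only [sub_sub_cancel] at h3
      exact h3.continuousMultilinearMap_apply_eq_zero
  · intro h
    have h1 := hq.isBigO_sub_partialSum_pow k
    have h2 : ∀ y, q.partialSum k y = 0 := fun y =>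
      Finset.sum_eq_zero fun i hi => h i (Finset.mem_range.1 hi) y
    simp only [h2, sub_zero] at h1
    exact h1

theorem ord_iff [CompleteSpace E] {f : E → ℂ} {z : E} (hf : AnalyticAt ℂ f z) (k : ℕ) :
    Ord f z k ↔ ∀ j < k, ∀ y, iteratedFDeriv ℂ j f z (fun _ => y) = 0 := by
  obtain ⟨q, r, hq⟩ := hf
  rw [ord_iff_ps hq.hasFPowerSeriesAt]
  refine forall₂_congr fun j _ => forall_congr' fun y => ?_
  rw [← hq.factorial_smul y j, smul_eq_zero, or_iff_right (Nat.factorial_ne_zero j)]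

/-- the Cauchy estimate -/
theorem Ord.fderiv {f : E → ℂ} {z : E} {d : ℕ} (hf : AnalyticAt ℂ f z) (h : Ord f z d) :
    (fun y => ‖y‖ * ‖fderiv ℂ f (z + y)‖) =O[𝓝 (0 : E)] fun y => ‖y‖ ^ d := by
  obtain ⟨C, hC0, hC⟩ := IsBigO.exists_nonneg h
  have h0 : Tendsto (fun y => z + y) (𝓝 (0 : E)) (𝓝 z) := by
    have : Continuous fun y : E => z + y := by fun_prop
    simpa using this.tendsto 0
  have h1 : ∀ᶠ y in 𝓝 (0 : E), AnalyticAt ℂ f (z + y) := h0.eventually hf.eventually_analyticAt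
  obtain ⟨δ, hδ, hb⟩ := Metric.eventually_nhds_iff_ball.1 (hC.bound.and h1)
  refine IsBigO.of_bound (C * 2 ^ d) ?_
  filter_upwards [ball_mem_nhds (0 : E) (half_pos hδ)] with y hy
  rw [mem_ball, dist_zero_right] at hy
  rw [Real.norm_of_nonneg (by positivity), Real.norm_of_nonneg (by positivity)]
  rcases (norm_nonneg y).eq_or_lt with hy0 | hy0
  · rw [← hy0, zero_mul]
    positivity
  rw [← le_div_iff₀' hy0]
  refine ContinuousLinearMap.opNorm_le_bound' _ (by positivity) fun v hv => ?_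
  have hv0 : 0 < ‖v‖ := (norm_nonneg v).lt_of_ne' hv
  set ρ : ℝ := ‖y‖ / ‖v‖ with hρ
  have hρ0 : 0 < ρ := by positivity
  have hn : ∀ ζ ∈ closedBall (0 : ℂ) ρ, ‖y + ζ • v‖ ≤ 2 * ‖y‖ := by
    intro ζ hζ
    rw [mem_closedBall, dist_zero_right] at hζ
    have h2 : ‖ζ‖ * ‖v‖ ≤ ‖y‖ := by
      rw [← le_div_iff₀ hv0]
      exact hζ
    calc ‖y + ζ • v‖ ≤ ‖y‖ + ‖ζ • v‖ := norm_add_le _ _
      _ ≤ 2 * ‖y‖ := by rw [norm_smul]; linarith
  have hm : ∀ ζ ∈ closedBall (0 : ℂ) ρ, y + ζ • v ∈ ball (0 : E) δ := fun ζ hζ => by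
    rw [mem_ball, dist_zero_right]
    linarith [hn ζ hζ]
  have hd : DifferentiableOn ℂ (fun ζ : ℂ => f (z + (y + ζ • v))) (closedBall 0 ρ) := by
    intro ζ hζ
    refine DifferentiableAt.differentiableWithinAt ?_
    exact DifferentiableAt.comp (g := f) ζ (hb _ (hm ζ hζ)).2.differentiableAt (by fun_prop)
  have h3 := Complex.norm_deriv_le_of_forall_mem_sphere_norm_le (c := 0) (C := C * (2 * ‖y‖) ^ d)
    hρ0 (hd.diffContOnCl_ball subset_rfl) fun ζ hζ => by
      have h4 := (hb _ (hm ζ (sphere_subset_closedBall hζ))).1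
      rw [norm_pow, norm_norm] at h4
      refine h4.trans ?_
      have := hn ζ (sphere_subset_closedBall hζ)
      gcongr
  have h5 : HasDerivAt (fun ζ : ℂ => f (z + (y + ζ • v))) (_root_.fderiv ℂ f (z + y) v) 0 := by
    have h6 : HasDerivAt (fun ζ : ℂ => z + (y + ζ • v)) v 0 := by
      simpa using (((hasDerivAt_id (0 : ℂ)).smul_const v).const_add y).const_add z
    have h7 : HasFDerivAt f (_root_.fderiv ℂ f (z + y)) (z + (y + (0 : ℂ) • v)) := by
      rw [zero_smul, add_zero]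
      exact (hb y (by rw [mem_ball, dist_zero_right]; linarith)).2.differentiableAt.hasFDerivAt
    exact h7.comp_hasDerivAt (0 : ℂ) h6
  rw [h5.deriv] at h3
  refine h3.trans (le_of_eq ?_)
  rw [hρ, mul_pow]
  field_simp

variable {W P : Type*} [NormedAddCommGroup W] [NormedSpace ℂ W] [NormedAddCommGroup P]
  [NormedSpace ℂ P]

/-- **order of vanishing can be read on a transversal** -/
theorem ord_of_slice {f : E → ℂ} {z : E} (hf : AnalyticAt ℂ f z) (Λ : E → W →L[ℂ] E)
    (hΛ : (fun y => Λ (z + y) - Λ z) =O[𝓝 (0 : E)] fun y => ‖y‖)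
    (hK : (fun y => (fderiv ℂ f (z + y)).comp (Λ (z + y))) =O[𝓝 (0 : E)] fun y => f (z + y))
    (B : P →L[ℂ] E) (R₁ : E →L[ℂ] P) (R₂ : E →L[ℂ] W) (hR : ∀ y, B (R₁ y) + Λ z (R₂ y) = y)
    {D : ℕ} (hD : Ord (fun w => f (z + B w)) 0 D) : Ord f z D := by
  suffices h : ∀ d ≤ D, Ord f z d from h D le_rfl
  intro d
  induction d with
  | zero => exact fun _ => ord_zero hf.continuousAt
  | succ d ih =>
    intro hd
    have h1 := ih (Nat.le_of_succ_le hd)
    have h2 : (fun y => (fderiv ℂ f (z + y)).comp (Λ (z + y) - Λ z)) =O[𝓝 (0 : E)]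
        fun y => ‖y‖ ^ d := by
      refine IsBigO.trans ?_ (h1.fderiv hf)
      obtain ⟨C, hC0, hC⟩ := hΛ.exists_nonneg
      refine IsBigO.of_bound C ?_
      filter_upwards [hC.bound] with y hy
      rw [norm_norm] at hy
      rw [Real.norm_of_nonneg (by positivity)]
      refine (ContinuousLinearMap.opNorm_comp_le _ _).trans ?_
      calc ‖fderiv ℂ f (z + y)‖ * ‖Λ (z + y) - Λ z‖ ≤ ‖fderiv ℂ f (z + y)‖ * (C * ‖y‖) := by
            gcongr
        _ = C * (‖y‖ * ‖fderiv ℂ f (z + y)‖) := by ring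
    have h3 : (fun y => (fderiv ℂ f (z + y)).comp (Λ z)) =O[𝓝 (0 : E)] fun y => ‖y‖ ^ d := by
      refine ((hK.trans h1).sub h2).congr_left fun y => ?_
      rw [ContinuousLinearMap.comp_sub, sub_sub_cancel]
    obtain ⟨C, hC0, hC⟩ := h3.exists_nonneg
    have h0 : Tendsto (fun y => z + y) (𝓝 (0 : E)) (𝓝 z) := by
      have : Continuous fun y : E => z + y := by fun_prop
      simpa using this.tendsto 0
    have h4 : ∀ᶠ y in 𝓝 (0 : E), AnalyticAt ℂ f (z + y) := h0.eventually hf.eventually_analyticAt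
    obtain ⟨δ, hδ, hb⟩ := Metric.eventually_nhds_iff_ball.1 (hC.bound.and h4)
    set c : ℝ := ‖B‖ * ‖R₁‖ + ‖Λ z‖ * ‖R₂‖ + 1 with hc
    have hc0 : 0 < c := by positivity
    -- the difference along the distribution
    have h5 : (fun y => f (z + y) - f (z + B (R₁ y))) =O[𝓝 (0 : E)] fun y => ‖y‖ ^ (d + 1) := by
      refine IsBigO.of_bound (C * c ^ d * ‖R₂‖) ?_
      filter_upwards [ball_mem_nhds (0 : E) (div_pos hδ hc0)] with y hy
      rw [mem_ball, dist_zero_right, lt_div_iff₀ hc0] at hy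
      have hn : ∀ w ∈ closedBall (0 : W) ‖R₂ y‖, ‖B (R₁ y) + Λ z w‖ ≤ c * ‖y‖ := by
        intro w hw
        rw [mem_closedBall, dist_zero_right] at hw
        have e1 : ‖B (R₁ y)‖ ≤ ‖B‖ * (‖R₁‖ * ‖y‖) :=
          (B.le_opNorm _).trans (by gcongr; exact R₁.le_opNorm y)
        have e2 : ‖Λ z w‖ ≤ ‖Λ z‖ * (‖R₂‖ * ‖y‖) :=
          ((Λ z).le_opNorm _).trans (by gcongr; exact hw.trans (R₂.le_opNorm y))
        calc ‖B (R₁ y) + Λ z w‖ ≤ ‖B (R₁ y)‖ + ‖Λ z w‖ := norm_add_le _ _
          _ ≤ c * ‖y‖ := by rw [hc]; nlinarith [norm_nonneg y]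
      have hm : ∀ w ∈ closedBall (0 : W) ‖R₂ y‖, B (R₁ y) + Λ z w ∈ ball (0 : E) δ := by
        intro w hw
        rw [mem_ball, dist_zero_right]
        linarith [hn w hw, mul_comm c ‖y‖]
      let _ : NormedSpace ℝ W := NormedSpace.restrictScalars ℝ ℂ W
      have h6 := Convex.norm_image_sub_le_of_norm_hasFDerivWithin_le (𝕜 := ℂ)
        (f := fun w => f (z + (B (R₁ y) + Λ z w)))
        (f' := fun w => (fderiv ℂ f (z + (B (R₁ y) + Λ z w))).comp (Λ z))
        (s := closedBall (0 : W) ‖R₂ y‖) (C := C * (c * ‖y‖) ^ d) (x := 0) (y := R₂ y)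
        (fun w hw => by
          refine HasFDerivAt.hasFDerivWithinAt ?_
          exact HasFDerivAt.comp (g := f) w (hb _ (hm w hw)).2.differentiableAt.hasFDerivAt
            (((Λ z).hasFDerivAt.const_add _).const_add _))
        (fun w hw => by
          have h7 := (hb _ (hm w hw)).1
          rw [norm_pow, norm_norm] at h7
          refine h7.trans ?_
          have := hn w hw
          gcongr)
        (convex_closedBall _ _) (mem_closedBall_self (norm_nonneg _))
        (by rw [mem_closedBall, dist_zero_right])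
      rw [hR, map_zero, add_zero, sub_zero] at h6
      refine h6.trans ?_
      rw [norm_pow, norm_norm, mul_pow, pow_succ]
      have := R₂.le_opNorm y
      calc C * (c ^ d * ‖y‖ ^ d) * ‖R₂ y‖ ≤ C * (c ^ d * ‖y‖ ^ d) * (‖R₂‖ * ‖y‖) := by gcongr
        _ = C * c ^ d * ‖R₂‖ * (‖y‖ ^ d * ‖y‖) := by ring
    have h8 : (fun y => f (z + B (R₁ y))) =O[𝓝 (0 : E)] fun y => ‖y‖ ^ (d + 1) := by
      have h9 : Tendsto R₁ (𝓝 0) (𝓝 0) := by simpa using R₁.continuous.tendsto 0
      have h10 := IsBigO.comp_tendsto (hD.mono hd) h9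
      have h11 : (fun y => ‖R₁ y‖ ^ (d + 1)) =O[𝓝 (0 : E)] fun y => ‖y‖ ^ (d + 1) :=
        (R₁.isBigO_id _).norm_norm.pow _
      refine IsBigO.trans ?_ h11
      simpa [Function.comp_def] using h10
    refine (h5.add h8).congr_left fun y => ?_
    rw [sub_add_cancel]

end Ord

variable {n : ℕ}

theorem ord_of_ja {f : Cn n → ℂ} {z : Cn n} (hf : AnalyticAt ℂ f z) {k : ℕ}
    (hk : ∀ α : Fin n → ℕ, ∑ b, α b < k → ja f z α = 0) : Ord f z k :=
  (ord_iff hf k).2 fun _ hj y => slice_zero (fun α hα => hk α (by omega)) y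

/-- **Schwarz lemma of order `k`** -/
theorem schwarzO {f : Cn n → ℂ} {U : Set (Cn n)} (hU : IsOpen U) (hf : DifferentiableOn ℂ f U)
    {z : Cn n} {r m : ℝ} (hr : 0 < r) (hsub : closedBall z (2 * r) ⊆ U)
    (hm : ∀ w ∈ closedBall z (2 * r), ‖f w‖ ≤ m) {k : ℕ} (hk : Ord f z k) {w : Cn n}
    (hw : w ∈ closedBall z r) : ‖f w‖ ≤ m * (1 / 2) ^ k * 2 := by
  have hzU : z ∈ U := hsub (mem_closedBall_self (by positivity))
  have han : AnalyticAt ℂ f z :=
    Crest.Agent.R266.SCV.analyticOnNhd_of_differentiableOn hU hf z hzU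
  have hmem : ∀ ζ ∈ closedBall (0 : ℂ) 2, z + ζ • (w - z) ∈ closedBall z (2 * r) := by
    intro ζ hζ
    rw [mem_closedBall, dist_eq_norm, add_sub_cancel_left, norm_smul]
    rw [mem_closedBall, dist_zero_right] at hζ
    rw [mem_closedBall, dist_eq_norm] at hw
    gcongr
  have hd : DifferentiableOn ℂ (fun ζ : ℂ => f (z + ζ • (w - z))) (closedBall 0 2) := by
    refine hf.comp (f := fun ζ : ℂ => z + ζ • (w - z)) ?_ fun ζ hζ => hsub (hmem ζ hζ)
    fun_prop
  have h1 := schwarz1 (φ := fun ζ : ℂ => f (z + ζ • (w - z))) (k := k) hd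
    (fun ζ hζ => hm _ (hmem ζ hζ)) fun j hj => by
      have h2 : HasFPowerSeriesOnBall (fun ζ : ℂ => f (z + ζ • (w - z)))
          (cauchyPowerSeries (fun ζ : ℂ => f (z + ζ • (w - z))) 0 ((2 : ℝ≥0) : ℝ)) 0
          ((2 : ℝ≥0) : ℝ≥0∞) :=
        DifferentiableOn.hasFPowerSeriesOnBall (R := 2) (by simpa using hd) (by norm_num)
      exact slice_cps han h2.hasFPowerSeriesAt ((ord_iff han k).1 hk j hj _)
  simpa using h1

/-! ### linear algebra -/

theorem iW_deg {v : FI n → ℂ} {p : ℕ} (hv : ∀ T : FI n, T.card ≠ p → v T = 0) (a : Fin n)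
    (T : FI n) (hT : T.card + 1 ≠ p) : ((iW (ep a) : Matrix (FI n) (FI n) ℂ) *ᵥ v) T = 0 := by
  rw [iW, K_mulVec, op]
  refine Finset.sum_eq_zero fun j _ => ?_
  by_cases hj : j ∈ T
  · rw [cf, if_pos hj]
    simp
  · rw [hv (tog T j) (by rw [tog, if_neg hj, Finset.card_insert_of_notMem hj]; exact hT), mul_zero]

/-- the annihilator of a nonzero vector of degree `p` has dimension at most `p` -/
theorem finrank_ann_le (p : ℕ) : ∀ (v : FI n → ℂ), v ≠ 0 → (∀ T : FI n, T.card ≠ p → v T = 0) →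
    ∀ N : Submodule ℂ (Fin n → ℂ), (∀ ξ ∈ N, eW ξ *ᵥ v = 0) → Module.finrank ℂ N ≤ p := by
  induction p using Nat.strong_induction_on with
  | _ p ih =>
    intro v hv hd N hN
    by_cases h0 : N = ⊥
    · rw [h0, finrank_bot]
      exact Nat.zero_le _
    obtain ⟨ξ, hξ, hξ0⟩ := N.exists_mem_ne_zero_of_ne_bot h0
    obtain ⟨a, ha⟩ : ∃ a, ξ a ≠ 0 := by
      by_contra h
      push Not at h
      exact hξ0 (funext h)
    have hc : ∀ η : Fin n → ℂ, η ∈ N →
        eW η *ᵥ ((iW (ep a) : Matrix (FI n) (FI n) ℂ) *ᵥ v) = η a • v := by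
      intro η hη
      have h1 := congrArg (· *ᵥ v) (iW_eW (ep a) η)
      simp only [add_mulVec, ← mulVec_mulVec, hN η hη, mulVec_zero, zero_add, smul_mulVec,
        one_mulVec] at h1
      rw [h1]
      congr 1
      simp [ep, Pi.single_apply]
    have hv1 : (iW (ep a) : Matrix (FI n) (FI n) ℂ) *ᵥ v ≠ 0 := by
      intro h
      have h1 := hc ξ hξ
      rw [h, mulVec_zero] at h1
      exact hv ((smul_eq_zero.1 h1.symm).resolve_left ha)
    obtain ⟨q, rfl⟩ : ∃ q, p = q + 1 := by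
      cases p with
      | zero => exact absurd (funext fun T => iW_deg hd a T (Nat.succ_ne_zero _)) hv1
      | succ q => exact ⟨q, rfl⟩
    set φ : N →ₗ[ℂ] ℂ := (LinearMap.proj a).comp N.subtype with hφ
    have h2 := ih q (Nat.lt_succ_self q) _ hv1
      (fun T hT => iW_deg hd a T fun h => hT (Nat.succ_injective h))
      ((LinearMap.ker φ).map N.subtype) (by
        rintro η ⟨η', hη', rfl⟩
        have h3 : (η' : Fin n → ℂ) a = 0 := hη'
        rw [Submodule.subtype_apply, hc _ η'.2, h3, zero_smul])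
    rw [Submodule.finrank_map_subtype_eq] at h2
    have h4 := LinearMap.finrank_range_add_finrank_ker φ
    have h5 : Module.finrank ℂ (LinearMap.range φ) ≤ 1 := by
      simpa using Submodule.finrank_le (LinearMap.range φ)
    omega

/-- the matrix of the distribution dual to `v` -/
def mx (v : FI n → ℂ) : Matrix (Fin n) (FI n) ℂ :=
  fun a T => ((eW (ep a) : Matrix (FI n) (FI n) ℂ) *ᵥ v) T

theorem mx_transpose_mulVec (v : FI n → ℂ) (ξ : Fin n → ℂ) : (mx v)ᵀ *ᵥ ξ = eW ξ *ᵥ v := by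
  funext T
  rw [eW_eq_sum ξ, sum_mulVec, Finset.sum_apply]
  simp only [smul_mulVec, Pi.smul_apply, smul_eq_mul]
  show ∑ a, mx v a T * ξ a = _
  exact Finset.sum_congr rfl fun a _ => mul_comm _ _

/-- the distribution dual to `v` -/
def lam (v : FI n → ℂ) : (FI n → ℂ) →L[ℂ] Cn n :=
  (EuclideanSpace.equiv (Fin n) ℂ).symm.toContinuousLinearMap.comp
    (LinearMap.toContinuousLinearMap (mx v).mulVecLin)

theorem lam_apply (v c : FI n → ℂ) (a : Fin n) : lam v c a = (mx v *ᵥ c) a := rfl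

/-- `lam` as a linear map -/
def lamL : (FI n → ℂ) →ₗ[ℂ] (FI n → ℂ) →L[ℂ] Cn n where
  toFun := lam
  map_add' v w := by
    ext c a
    simp [lam_apply, mx, mulVec, dotProduct, add_mul, Finset.sum_add_distrib, mul_add]
  map_smul' t v := by
    ext c a
    have h1 : mx (t • v) = t • mx v := by
      ext b T
      simp [mx, mulVec_smul]
    simp [lam_apply, h1, smul_mulVec]

theorem apply_lam (φ : Cn n →L[ℂ] ℂ) (v c : FI n → ℂ) :
    φ (lam v c) = c ⬝ᵥ (eW (fun a => φ (EuclideanSpace.single a 1)) *ᵥ v) := by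
  have h1 : lam v c = ∑ a, (lam v c a) • (EuclideanSpace.single a (1 : ℂ) : Cn n) := by
    ext d
    simp [Finset.sum_apply, Pi.single_apply]
  rw [h1, map_sum, ← mx_transpose_mulVec, dotProduct_mulVec, vecMul_transpose]
  simp only [map_smul, smul_eq_mul, lam_apply]
  rfl

/-- a transversal of dimension `p` -/
theorem exists_transv {p : ℕ} {v : FI n → ℂ} (hv : v ≠ 0)
    (hd : ∀ T : FI n, T.card ≠ p → v T = 0) :
    ∃ (B : Cn p →L[ℂ] Cn n) (R₁ : Cn n →L[ℂ] Cn p) (R₂ : Cn n →L[ℂ] (FI n → ℂ)),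
      ∀ y, B (R₁ y) + lam v (R₂ y) = y := by
  have h1 : Module.finrank ℂ (LinearMap.ker (mx v)ᵀ.mulVecLin) ≤ p :=
    finrank_ann_le p v hv hd _ fun ξ hξ => by
      rw [← mx_transpose_mulVec]
      exact hξ
  have h2 := LinearMap.finrank_range_add_finrank_ker (mx v)ᵀ.mulVecLin
  have h3 : Module.finrank ℂ (LinearMap.range (mx v)ᵀ.mulVecLin) =
      Module.finrank ℂ (LinearMap.range (mx v).mulVecLin) := Matrix.rank_transpose (mx v)
  have h4 : Module.finrank ℂ (LinearMap.range (lam v).toLinearMap) =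
      Module.finrank ℂ (LinearMap.range (mx v).mulVecLin) := by
    have h5 : (lam v).toLinearMap =
        (EuclideanSpace.equiv (Fin n) ℂ).symm.toLinearEquiv.toLinearMap.comp
          (mx v).mulVecLin := rfl
    rw [h5, LinearMap.range_comp, LinearEquiv.finrank_map_eq]
  obtain ⟨Q, hQ⟩ := (LinearMap.range (lam v).toLinearMap).exists_isCompl
  have h6 := Submodule.finrank_add_eq_of_isCompl hQ
  have h7 : Module.finrank ℂ Q ≤ p := by
    rw [Module.finrank_fin_fun] at h2
    rw [finrank_euclideanSpace_fin] at h6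
    omega
  obtain ⟨j, hj⟩ := (finrank_le_iff_exists_linearMap (R := ℂ) (M := Q)
    (M' := Cn p)).1 (by rwa [finrank_euclideanSpace_fin])
  obtain ⟨g, hg⟩ := j.exists_leftInverse_of_injective (LinearMap.ker_eq_bot.2 hj)
  obtain ⟨s, hs⟩ := (lam v).toLinearMap.rangeRestrict.exists_rightInverse_of_surjective
    (LinearMap.range_rangeRestrict _)
  refine ⟨LinearMap.toContinuousLinearMap (Q.subtype.comp g),
    LinearMap.toContinuousLinearMap (j.comp (Q.projectionOnto _ hQ.symm)),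
    LinearMap.toContinuousLinearMap (s.comp (Submodule.projectionOnto _ Q hQ)), fun y => ?_⟩
  have h8 : ∀ u, lam v (s u) = u := fun u => congrArg Subtype.val (LinearMap.congr_fun hs u)
  have h9 : ∀ u, g (j u) = u := fun u => LinearMap.congr_fun hg u
  simp only [LinearMap.coe_toContinuousLinearMap', LinearMap.comp_apply, h8, h9,
    Submodule.subtype_apply]
  rw [add_comm]
  exact Submodule.projection_add_projection_eq_self hQ y

end

end Crest.Agent.X261.E0.UpL
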